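import Mathlib
import Vale.Agent.P252.Defs
import Vale.Agent.P252.Calc

/-! The affine Bernstein property fails in every dimension `n ≥ 10`: there is a smooth, entire,
locally uniformly convex, non-quadratic solution of the affine maximal equation. -/

namespace Vale.Agent.Results.P252.AffineBernstein

open Vale.Agent.P252

theorem result : ∀ n : ℕ, 10 ≤ n → ∃ u : EuclideanSpace ℝ (Fin n) → ℝ,
    ContDiff ℝ (↑(⊤ : ℕ∞)) u ∧
    ContDiff ℝ (↑(⊤ : ℕ∞)) (fun y => (hessian u y).det ^ (-(((n : ℝ) + 1) / ((n : ℝ) + 2)))) ∧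
    (∀ x, (hessian u x).PosDef) ∧
    (∀ x, ∑ i, ∑ j, ((hessian u x).det * (hessian u x)⁻¹ i j)
      * hessian (fun y => (hessian u y).det ^ (-(((n : ℝ) + 1) / ((n : ℝ) + 2)))) x i j = 0) ∧
    ¬ ∃ (A : Fin n → Fin n → ℝ) (b : Fin n → ℝ) (c : ℝ),
      ∀ x, u x = (∑ i, ∑ j, A i j * x i * x j) + (∑ i, b i * x i) + c := by
  intro n hn
  obtain ⟨m, rfl⟩ : ∃ m, n = m + 1 := ⟨n - 1, by omega⟩
  have hμ : (9 : ℝ) ≤ (m : ℝ) := by exact_mod_cast (show 9 ≤ m by omega)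
  obtain ⟨Q⟩ := exists_profile hμ
  have hm : 1 ≤ m := by omega
  refine ⟨uu Q, contDiff_uu Q, ?_, posDef_HH Q, equation_uu Q hm, not_quadratic Q⟩
  rw [show (fun y => (hessian (uu Q) y).det
      ^ (-((((m + 1 : ℕ) : ℝ) + 1) / (((m + 1 : ℕ) : ℝ) + 2)))) = ww Q from
    funext (det_rpow_eq Q hm)]
  exact contDiff_ww Q

end Vale.Agent.Results.P252.AffineBernstein
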