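import Vale.Agent.P252B.Main
import Vale.Agent.P252B.Image

/-!
No Euclidean complete affine maximal graph over a slab has at most linear growth.
-/

open Set Finset

namespace Vale.Agent.Results.P252.NoLinearGrowthSlab

open Vale.Agent.P252 (hessian)

/-- Euclidean complete affine maximal graphs over slabs grow superlinearly. -/
theorem result {n : ℕ} (hn : 1 ≤ n) (Ω : Set (EuclideanSpace ℝ (Fin n)))
    (u : EuclideanSpace ℝ (Fin n) → ℝ) (hΩ : IsOpen Ω) (hconv : Convex ℝ Ω)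
    (hu : ContDiffOn ℝ (↑(⊤ : ℕ∞)) u Ω) (hpd : ∀ x ∈ Ω, (hessian u x).PosDef)
    (heq : ∀ x ∈ Ω, ∑ i, ∑ j, ((hessian u x).det * (hessian u x)⁻¹ i j)
      * hessian (fun y => (hessian u y).det ^ (-(((n : ℝ) + 1) / ((n : ℝ) + 2)))) x i j = 0)
    (hclosed : IsClosed {p : EuclideanSpace ℝ (Fin n) × ℝ | p.1 ∈ Ω ∧ p.2 = u p.1}) :
    ¬ ∃ (I : Finset (Fin n)) (x₀ : EuclideanSpace ℝ (Fin n)) (C : ℝ),
      (∀ x ∈ Ω, ∀ i, i ∉ I → |x i| ≤ C) ∧
      ∀ x : EuclideanSpace ℝ (Fin n), (∀ i, i ∉ I → x i = x₀ i) → x ∈ Ω ∧ u x ≤ C * (1 + ‖x‖) :=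
  Vale.Agent.P252B.no_slab_solution Vale.Agent.P252B.holderImage Vale.Agent.P252B.variation
    Vale.Agent.P252B.gmeasFinite hn Ω u ⟨hΩ, hconv, hu, hpd⟩ heq hclosed

end Vale.Agent.Results.P252.NoLinearGrowthSlab
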