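import Vale.Agent.P252D.Entire
import Vale.Agent.P252F.PointCert

/-! The affine Bernstein theorem in dimension three: a Euclidean complete affine maximal graph
over a convex domain of three-dimensional space is an elliptic paraboloid. -/

namespace Vale.Agent.Results.P252.RigidityThree

open Vale.Agent.P252 (hessian)
open Vale.Agent.P252D (EuclideanComplete)

theorem result :
    (∀ (Ω : Set (EuclideanSpace ℝ (Fin 3))) (u : EuclideanSpace ℝ (Fin 3) → ℝ),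
      IsOpen Ω → Convex ℝ Ω → Ω.Nonempty → ContDiffOn ℝ (↑(⊤ : ℕ∞)) u Ω →
      (∀ x ∈ Ω, (hessian u x).PosDef) →
      (((∀ x ∈ Ω, ∑ i, ∑ j, ((hessian u x).det * (hessian u x)⁻¹ i j)
        * hessian (fun y => (hessian u y).det ^ (-((4 : ℝ) / 5))) x i j = 0) ∧
      EuclideanComplete Ω u) ↔
      Ω = Set.univ ∧ ∃ (A : Matrix (Fin 3) (Fin 3) ℝ) (b : Fin 3 → ℝ) (c : ℝ), A.PosDef ∧
        ∀ x, u x = (∑ i, ∑ j, A i j * x i * x j) / 2 + (∑ i, b i * x i) + c)) ∧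
    ∀ u : EuclideanSpace ℝ (Fin 3) → ℝ, ContDiff ℝ (↑(⊤ : ℕ∞)) u →
      (∀ x, (hessian u x).PosDef) →
      (∀ x, ∑ i, ∑ j, ((hessian u x).det * (hessian u x)⁻¹ i j)
        * hessian (fun y => (hessian u y).det ^ (-((4 : ℝ) / 5))) x i j = 0) →
      ∃ (A : Matrix (Fin 3) (Fin 3) ℝ) (b : Fin 3 → ℝ) (c : ℝ), A.PosDef ∧
        ∀ x, u x = (∑ i, ∑ j, A i j * x i * x j) / 2 + (∑ i, b i * x i) + c :=
  let ⟨_, _, hε, hP⟩ := Vale.Agent.P252F.exists_pointCert
  Vale.Agent.P252D.three_unfolded Vale.Agent.P252F.hdeg hε hP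

end Vale.Agent.Results.P252.RigidityThree
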